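import Vale.Agent.P283R.Bg.St
import Vale.Agent.P283R.Bx.St

/-!
# P283R, block BG: subvarieties of the affine space have bounded embedding dimension
-/

open Set

noncomputable section

namespace Vale.Agent.P283R.Bg

open Vale.Agent.P287D

/-- the embedding dimension is at most the number of the generators -/
theorem emd {F : Type} [Field F] [Algebra ℂ F] {E : ℕ} (z : Fin E → F)
    (q : Ideal (Algebra.adjoin ℂ (range z))) (hq : q.IsMaximal) : Bx.Emd E _ q := by
  classical
  have ft : Algebra.FiniteType ℂ (Algebra.adjoin ℂ (range z)) :=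
    (Subalgebra.fg_iff_finiteType _).1 ⟨(finite_range z).toFinset, by simp⟩
  let := Ideal.Quotient.field q
  have : Module.Finite ℂ (_ ⧸ q) := finite_of_finite_type_of_isJacobsonRing ℂ _
  have su := (IsAlgClosed.algebraMap_bijective_of_isIntegral (k := ℂ) (K := _ ⧸ q)).2
  let w : Fin E → Algebra.adjoin ℂ (range z) := fun j => ⟨z j, Algebra.subset_adjoin ⟨j, rfl⟩⟩
  choose c hc using fun j => su (Ideal.Quotient.mk q (w j))
  let v := fun j => w j - algebraMap ℂ _ (c j)
  have hv : ∀ j, v j ∈ q := fun j => Ideal.Quotient.eq.1 (hc j).symm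
  have key : ∀ x (hx : x ∈ Algebra.adjoin ℂ (range z)), ∃ r : ℂ,
      (⟨x, hx⟩ : Algebra.adjoin ℂ (range z)) - algebraMap ℂ _ r ∈ Ideal.span (range v) := by
    intro x hx
    induction hx using Algebra.adjoin_induction with
    | mem x hx =>
      obtain ⟨j, rfl⟩ := hx
      exact ⟨c j, Ideal.subset_span ⟨j, rfl⟩⟩
    | algebraMap r => exact ⟨r, (sub_self (algebraMap ℂ (Algebra.adjoin ℂ (range z)) r)).symm ▸ zero_mem _⟩
    | add x y hx hy a b =>
      obtain ⟨r, a⟩ := a
      obtain ⟨r', b⟩ := b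
      refine ⟨r + r', ?_⟩
      rw [map_add, show (⟨x + y, add_mem hx hy⟩ : Algebra.adjoin ℂ (range z)) =
        ⟨x, hx⟩ + ⟨y, hy⟩ from rfl, add_sub_add_comm]
      exact add_mem a b
    | mul x y hx hy a b =>
      obtain ⟨r, a⟩ := a
      obtain ⟨r', b⟩ := b
      refine ⟨r * r', ?_⟩
      rw [map_mul, show (⟨x * y, mul_mem hx hy⟩ : Algebra.adjoin ℂ (range z)) =
        ⟨x, hx⟩ * ⟨y, hy⟩ from rfl]
      have := add_mem (Ideal.mul_mem_left _ ⟨x, hx⟩ b)
        (Ideal.mul_mem_right (algebraMap ℂ _ r') _ a)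
      rwa [mul_sub, sub_mul, sub_add_sub_cancel] at this
  refine ⟨v, hv, fun a ha => ?_⟩
  obtain ⟨r, hr⟩ := key a.1 a.2
  have le : Ideal.span (range v) ≤ q := Ideal.span_le.2 (range_subset_iff.2 hv)
  have r0 : r = 0 := by_contra fun e => hq.ne_top (Ideal.eq_top_of_isUnit_mem _
    (by simpa using sub_mem ha (le hr)) ((IsUnit.mk0 r e).map (algebraMap ℂ _)))
  rw [r0, map_zero, sub_zero] at hr
  obtain ⟨b, hb⟩ := Ideal.mem_span_range_iff_exists_fun.1 hr
  refine ⟨fun j => b j, fun j => ⟨b j, 1, fun x => hq.ne_top ((Ideal.eq_top_iff_one _).2 x),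
    by simp⟩, ?_⟩
  have := congrArg Subtype.val hb
  push_cast at this
  exact this.symm

theorem abg_of (h : Bx.ABE) : ABG := fun N E Q ε hQ hε => by
  obtain ⟨J, n₀, n0, H⟩ := h N E Q ε hQ hε
  refine ⟨J, n₀, n0, fun n a b c F _ _ G S z p y m g h P e _ _ pp h0 _ o l hy => ?_⟩
  subst e
  obtain ⟨q, hq, le⟩ := p.exists_le_maximal pp.ne_top
  exact H n a b c F G _ p q y m g h P pp hq le (emd z q hq) ⟨h0, fun R _ => o R⟩
    (fun R ⟨r, _, k⟩ => l R ⟨r, k⟩) fun r _ => hy r

end Vale.Agent.P283R.Bg
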