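import Vale.Agent.P283R.Bg.St
import Vale.Agent.P283R.Cx.Cor
import Vale.Agent.P283R.Cx.Grp
import Vale.Agent.P283R.Cx.Aff
import Vale.Agent.P283R.Cx.Gav
import Vale.Agent.P283R.Cx.Pdv
import Vale.Agent.P283R.Cx.Kah
import Vale.Agent.P283R.Cx.Lar

/-!
# P283R, block BG: the theorem for the finite groups, at one place
-/

open Set

noncomputable section

namespace Vale.Agent.P283R.Bg

open Vale.Agent.P287D Vale.Agent.P297Z Vale.Agent.P283R.Cx

theorem corG (hA : ABG) (N d k q : ℕ) (ε : ℝ) (q0 : 0 < q) (e0 : 0 < ε) :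
    ∃ m : ℕ, 2 ≤ m ∧ CorG N d k q ε m := by
  obtain ⟨J, n₀, n0, H⟩ := hA (d + k) N q ε q0 e0
  refine ⟨2 * n₀ * J.factorial, by nlinarith [Nat.mul_le_mul n0 J.factorial_pos], ?_⟩
  intro K F _ _ _ _ _ _ y t T D s a h δ r x fy cx h0 he r0 hy U hU
  have ht := x.ind.ne_zero
  have A := aff K F d k y t x fy _ T D s a cx
  have N := nor_of gav K F d k y t x fy _ T D s a cx
  obtain ⟨G, g0', g1, g2, g3, g4⟩ := grp K F d k y t x fy r r0
  obtain ⟨l1, l2⟩ := lar K F d k y t x fy r r0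
  obtain ⟨p, hp⟩ := Tq.exists_cen hU
  have pp := Hr.cen_prime hp
  have P := Cr.pr (δ := δ) ht h0 q0 r0 A N g1 (g2 _ s a) g3 l1
  have q' : (0 : ℝ) < q := Nat.cast_pos.2 q0
  have r' : (0 : ℝ) < r := Nat.cast_pos.2 r0
  have eg : ∀ (φ : K) e, Eig G (hm t φ e) := fun φ e σ hσ => by
    have z : σ ∈ Gr K t r := g0' ▸ hσ
    choose c _ hc using z.2
    exact ⟨_, Grp.map_hm z.1 hc φ e⟩
  have hyp : ∀ p', Hyp ε G (Rg s a t) p' (zt y fun i => t i ^ r) (q * r) (Cr.tw t h δ q r r) :=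
    fun p' V c e e0 v => by
      rw [Cr.ld_tw ht h0 q0 r0 l2]
      exact hy G g0' V (fun z hz => (c ⟨z, hz⟩).1) e e0 v
  obtain ⟨B, i, S⟩ := H (q * (2 * n₀)) (by positivity) ((dvd_mul_left _ _).mul_left _)
    (dvd_mul_right _ _) F G _ (fun j => hm t (s j) (a j)) p _ _ _ (Cr.tw t h δ q r 1) P rfl
    (fun j => hm_ne ht (cx.ne j) _) (fun j => eg _ _) pp (hm_ne ht (pow_ne_zero _ h0) _) (eg _ _)
    (fun R => by
      rw [Cr.ord_tw ht h0, Cr.ord_tw ht h0]
      push_cast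
      field_simp)
    (fun R c => by
      rw [Cr.ld_tw ht h0 q0 r0 l2]
      obtain ⟨E, hE, v⟩ | z := pdv_of grd gav K F d k y t x fy _ T D s a cx R c
      · rw [v.lt, v.ord _ _ h0, add_sub_assoc, add_le_iff_nonpos_right, sub_nonpos,
          le_div_iff₀ q', mul_comm]
        exact he E hE
      · rw [kah K F d k y t x fy _ T D s a cx R c z, z _ _ h0]
        simp) hyp
  have S' := nt _ J _ F G B _ p _ _ _ (by positivity) P pp i S
  rw [mul_assoc] at S'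
  exact Cr.back ht cx.ne h0 q0 r0 (by positivity) A N g4 l2 hp S'

end Vale.Agent.P283R.Bg
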