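import Vale.Agent.P283R.Bg.St
import Vale.Agent.P283R.Cx.Top
import Vale.Agent.P283R.Cx.Bas
import Vale.Agent.P283R.Cx.Aff
import Vale.Agent.P283R.Cx.Gav
import Vale.Agent.P283R.Cx.Pdv
import Vale.Agent.P283R.Cx.Lar
import Vale.Agent.P283R.Cx.Ext
import Vale.Agent.P283R.Cx.Neg
import Vale.Agent.P283R.Cx.Dwn
import Vale.Agent.P283R.Cx.Hor
import Vale.Agent.P283R.Cx.Lif
import Vale.Agent.P283R.Cx.Fin
import Vale.Agent.P283R.Cx.Bak

/-!
# P283R, block BG: the assembly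
-/

open Set
open Vale.Agent.P297Z

noncomputable section

namespace Vale.Agent.P283R.Bg

open Vale.Agent.P287D Vale.Agent.P283M Vale.Agent.P283R.Cx

section

variable {K F : Type} [Field K] [Algebra ℂ K] [Field F] [Algebra ℂ F] [Algebra K F] {k N : ℕ}
  {t : Fin k → F} {s : Fin N → K} {a : Fin N → Fin k → ℤ} {n : ℕ} {u : Finset K} {Λ Γ Γ' : BD K}
  {D : Pl K → Fin k → ℤ}

/-- nef divisors -/
theorem nef_le [IsScalarTower ℂ K F] (A : Dat n u Λ Γ Γ') (x : Ext K (n + 1) t)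
    {y : Fin (n + 1) → K} (hy : Frm y) (cx : Cox (Tt n u Λ) D s a) {q : ℕ} (hq : 0 < q) {h w : K}
    {δ : Fin k → ℤ} (w0 : w ≠ 0) (hw : ∀ P ∈ Tt n u Λ, -Γ' P ≤ P.ord w)
    (e2 : Eqv (Tt n u Λ) D ((q : ℝ) • Γ) h δ) (nef : NefO n K u (-Γ)) {U : Pl F}
    (hU : ∀ x ∈ Rg s a t, x ∈ U.ring) :
    (∀ Q, Lies (algebraMap K F) U Q → Ov u Q →
      (U.ord (hm t h δ) : ℝ) / q ≤ U.ord (algebraMap K F Q.t) * Γ Q) ∧
    ((∀ x : K, algebraMap K F x ∈ U.ring) → (U.ord (hm t h δ) : ℝ) / q ≤ 0) := by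
  have q0 : (0 : ℝ) < q := Nat.cast_pos.2 hq
  have key := fun (η : ℝ) (η0 : 0 < η) => neg_of aff (nor_of gav) (pdv_of grd gav) K F (n + 1) k y
    t x hy N _ D s a cx u (-Γ - η • Γ') h w δ 0 (-(q : ℝ)⁻¹) η (fun P p => p.1)
    (Br.klr A A.dn.neg nef η0) e2.1 w0 (fun P p => by
      have b1 := hw P p
      have b2 := e2.2 P p
      rw [Pi.smul_apply, smul_eq_mul] at b2
      rw [zero_dotProduct, add_zero]
      push_cast at b2 ⊢
      rw [← b2, neg_mul, inv_mul_cancel_left₀ q0.ne']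
      simp only [Pi.sub_apply, Pi.neg_apply, Pi.smul_apply, smul_eq_mul]
      nlinarith) U hU
  refine ⟨fun Q l o => Tz.le_lim (z := U.ord (algebraMap K F Q.t) * Γ' Q +
    U.ord (hm t w 0)) fun η η0 => ?_,
    fun o => Tz.le_lim (z := U.ord (hm t w 0)) fun η η0 => ?_⟩
  · have := (key η η0).1 Q l o
    simp only [Pi.sub_apply, Pi.neg_apply, Pi.smul_apply, smul_eq_mul] at this
    rw [div_eq_inv_mul]
    linarith
  · have := (key η η0).2 o
    rw [div_eq_inv_mul]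
    linarith

end

open Tz in
theorem topG {N k n q m : ℕ} {ε : ℝ} (hq : 0 < q) (hε : 0 < ε) (m2 : 2 ≤ m)
    (cor : CorG N (n + 1) k q (min ε 1) m) : QgB N k n q ε (q * m) := by
  intro K _ _ u Λ Γ Γ' D s a A cx all ⟨w, w0, hw⟩ ⟨h, δ, e3⟩ bd lc nef
  obtain ⟨y, Dy, fy, ey⟩ := Cb.exists_cn A.ff
  have hy : Frm y := ⟨Dy, fy⟩
  obtain ⟨F, _, _, _, _, t, x⟩ := ext K (n + 1) k A.ff
  have t0 := x.ind.ne_zero
  have q0 : (0 : ℝ) < q := Nat.cast_pos.2 hq
  have eq : ∀ E ∈ Tt n u Λ, q * kap y E ≤ (E.ord h + δ ⬝ᵥ D E : ℤ) := fun P p => by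
    have b2 := bd P p
    have b3 := e3.2 P p
    simp only [dsc, ey, Pi.sub_apply, Pi.smul_apply, smul_eq_mul] at b2 b3
    push_cast at b3 ⊢
    nlinarith
  have hyp : ∀ r : ℕ, 0 < r → ∀ G : Subgroup (F ≃ₐ[ℂ] F), (G : Set _) = Gr K t r → ∀ U : Pl F,
      (∀ x ∈ Rg s a t, x ∈ U.ring) → ∀ e : ℕ, 0 < e → Dv G U e →
        min ε 1 * e ≤ lt y t U - (U.ord (hm t h δ) : ℝ) / q := by
    intro r r0 G hG U hU e e0 dv
    have nf := nef_le A x hy cx hq w0 hw e3 nef hU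
    have e0' : (0 : ℝ) ≤ e := Nat.cast_nonneg _
    obtain ⟨tr, -⟩ | ⟨Q, l, w⟩ := dwn K F (n + 1) k y t x hy U
    · have z : ∀ e : Fin k → ℤ, 0 ≤ ∑ i, e i * U.ord (t i) := fun e => by
        obtain ⟨φ, p, φ0⟩ := all e
        have := Pl.ord_nonneg_of_mem _ (hU _ (hm_mem grd x hy p))
        rwa [Tz.ord_hm t0 U φ0, Trv.ord tr, zero_add] at this
      have z0 : ∀ i, U.ord (t i) = 0 := fun i => by
        have b1 := z (Pi.single i 1)
        have b2 := z (Pi.single i (-1))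
        rw [Finset.sum_eq_single i (fun j _ c => by simp [c]) (by simp), Pi.single_eq_same] at b1 b2
        omega
      obtain ⟨fr, sh⟩ := lar K F (n + 1) k y t x hy r r0
      have := hor _ F G _ U e x.ff' fr (fun i => by
        refine Fin.addCases (fun i => ?_) (fun i => ?_) i
        · simpa [zt] using fix_K hG _
        · simpa [zt] using fix_t hG _) (fun i => by
        refine Fin.addCases (fun i => ?_) (fun i => ?_) i
        · simpa [zt] using tr _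
        · simpa [zt] using pow_mem (Cb.mem_ord (z0 i).ge) r) dv
      rw [sh] at this
      simp only [z0, Int.cast_zero, Finset.sum_const_zero, mul_zero, add_zero] at this
      nlinarith [nf.2 tr, min_le_right ε 1]
    · have o := ov_of grd x hy cx hU l
      have := hyp_ver ey hε.le l hG dv (lc Q o) w (nf.1 Q l o)
      nlinarith [min_le_left ε 1]
  refine bak n k _ q m K u Λ Γ Γ' D s a y h δ A cx hy ey (by nlinarith) e3 fun Q o => ?_
  obtain ⟨U, u₀, l, e, d0, w⟩ := lif K F (n + 1) k y t x hy _ s a Q cx.ne (mon_ov A cx o)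
  obtain ⟨c', c1, c2⟩ := fin _ k a _ u₀ (-((m : ℤ) • δ)) _ d0 w fun r r0 =>
    (cor K F y t _ D s a h δ r x hy cx e3.1 eq r0 (hyp r r0) U
      (rg_le fun j => (w j).1)).imp fun _ p => ⟨fun i => by simpa using p.1 i, p.2⟩
  exact ⟨c', c1, ld_pos t0 cx.ne l e hq (by omega) e3.1 c1 c2⟩

end Vale.Agent.P283R.Bg
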