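import Vale.Agent.P283R.Bg.Cor
import Vale.Agent.P283R.Bg.Top
import Vale.Agent.P283R.Bg.Abg
import Vale.Agent.P283R.To.Cv

/-!
# P283R, block BG: the statement for the rows
-/

open Set
open Vale.Agent.P297Z

noncomputable section

namespace Vale.Agent.P283R.Bg

open Vale.Agent.P287D Vale.Agent.P283M Vale.Agent.P283R.Cx

section

variable {K : Type} [Field K] [Algebra ℂ K] {k N : ℕ} {s : Fin N → K} {a : Fin N → Fin k → ℤ}
  {T : Set (Pl K)} {D : Pl K → Fin k → ℤ}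

theorem nn (cx : Cox T D s a) {x : K} (h : x ∈ Sp s a 0) (x0 : x ≠ 0) {P : Pl K} (p : P ∈ T) :
    0 ≤ P.ord x := by simpa using (cx.sec 0 x x0).1 h P p

/-- functions on the base with zeros of high order -/
theorem clr (cx : Cox T D s a) (all : ∀ e, ∃ φ ∈ Sp s a e, φ ≠ 0) {S : Set (Pl K)} (f : S.Finite)
    (o : S ⊆ T) (w : Pl K → ℝ) : ∃ x ∈ Sp s a 0, x ≠ 0 ∧ ∀ P ∈ S, w P ≤ P.ord x := by
  induction S, f using Finite.induction_on with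
  | empty => exact ⟨_, dg_zero a ▸ mon_mem s a 0, by simp, fun _ h => h.elim⟩
  | @insert Q S _ _ ih =>
    obtain ⟨x, x1, x0, hx⟩ := ih fun P h => o (mem_insert_of_mem _ h)
    obtain ⟨e, b, b1, c, c1, c0, h⟩ := cx.fr0 Q.t
    obtain ⟨φ, φ1, φ0⟩ := all (-e)
    have b0 : b ≠ 0 := fun z => Q.t_ne (by simp [h, z])
    have v1 := sp_mul b1 φ1
    have z1 := sp_mul c1 φ1
    rw [add_neg_cancel] at v1 z1
    have v0 := mul_ne_zero b0 φ0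
    have p : 1 ≤ Q.ord (b * φ) := by
      have h1 := Q.ord_t
      have h2 := nn cx z1 (mul_ne_zero c0 φ0) (o (mem_insert _ _))
      rw [h, Pl.ord_div _ b0 c0] at h1
      rw [Pl.ord_mul _ c0 φ0] at h2
      rw [Pl.ord_mul _ b0 φ0]
      omega
    have pw : ∀ n : ℕ, x * (b * φ) ^ n ∈ Sp s a 0 := fun n => by
      induction n with
      | zero => simpa using x1
      | succ n ih => rw [pow_succ, ← mul_assoc]; simpa using sp_mul ih v1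
    refine ⟨_, pw ⌈w Q⌉₊, mul_ne_zero x0 (pow_ne_zero _ v0), fun P h => ?_⟩
    rw [Pl.ord_mul _ x0 (pow_ne_zero _ v0), Pl.ord_pow]
    have h1 : (0 : ℝ) ≤ P.ord x := Int.cast_nonneg (nn cx x1 x0 (o h))
    have h2 : (0 : ℝ) ≤ P.ord (b * φ) := Int.cast_nonneg (nn cx v1 v0 (o h))
    push_cast
    rcases h with rfl | h
    · have : (1 : ℝ) ≤ P.ord (b * φ) := by exact_mod_cast p
      nlinarith [Nat.le_ceil (w P), (Nat.cast_nonneg ⌈w P⌉₊ : (0 : ℝ) ≤ _)]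
    · nlinarith [hx P h, (Nat.cast_nonneg ⌈w Q⌉₊ : (0 : ℝ) ≤ _)]

theorem exists_w {n : ℕ} {u : Finset K} {Λ Γ Γ' : BD K} (A : Dat n u Λ Γ Γ')
    (cx : Cox (Tt n u Λ) D s a) (all : ∀ e, ∃ φ ∈ Sp s a e, φ ≠ 0) :
    ∃ x : K, x ≠ 0 ∧ ∀ P ∈ Tt n u Λ, -Γ' P ≤ P.ord x := by
  obtain ⟨x, x1, x0, h⟩ := clr cx all (S := {P | P ∈ Tt n u Λ ∧ Γ' P ≠ 0})
    ((To.Cv.fin_car A A.dn'.car).subset fun P p => ⟨p.1.2, p.2⟩) (fun P p => p.1) fun P => -Γ' P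
  refine ⟨x, x0, fun P p => ?_⟩
  by_cases z : Γ' P = 0
  · rw [z, neg_zero]
    exact Int.cast_nonneg (nn cx x1 x0 p)
  · exact h P ⟨p, z⟩

end

/-- the birational case -/
theorem qg (hA : Bx.ABE) (n N k q : ℕ) (ε : ℝ) (hq : 0 < q) (hε : 0 < ε) : ∃ M : ℕ, 1 ≤ M ∧
    ∀ (K : Type) [Field K] [Algebra ℂ K] (u : Finset K) (Λ Γ Γ' : BD K) (D : Pl K → Fin k → ℤ)
      (s : Fin N → K) (a : Fin N → Fin k → ℤ), Dat n u Λ Γ Γ' → Cox (Tt n u Λ) D s a →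
      (∀ e, ∃ φ ∈ Sp s a e, φ ≠ 0) → (∃ h e, Eqv (Tt n u Λ) D ((q : ℝ) • Γ) h e) →
      (∀ P ∈ Tt n u Λ, dsc (n + 1) Γ P ≤ 0) → (∀ P, Ov u P → ε ≤ 1 + dsc (n + 1) Γ P) →
      NefO n K u (-Γ) → Cpl n M u Λ Γ := by
  obtain ⟨m, m2, H⟩ := corG (abg_of hA) N (n + 1) k q (min ε 1) hq (lt_min hε one_pos)
  exact ⟨q * m, Nat.mul_pos hq (by omega), fun K _ _ u Λ Γ Γ' D s a A cx all =>
    topG hq hε m2 H K u Λ Γ Γ' D s a A cx all (exists_w A cx all)⟩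

end Vale.Agent.P283R.Bg
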