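import Vale.Agent.P283R.Cx.St
import Vale.Agent.P283R.Cx.Br

/-!
# P283R, block BG: rings of sections with a bounded number of generators (statements)
-/

open Set

noncomputable section

namespace Vale.Agent.P283R.Bg

open Vale.Agent.P287D Vale.Agent.P283M Vale.Agent.P283R.Cx

/-- **ABG**: normal subvarieties of the affine space, diagonal groups -/
def ABG : Prop := ∀ (N E Q : ℕ) (ε : ℝ), 0 < Q → 0 < ε → ∃ J : ℕ, Unif Q fun n =>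
  ∀ (F : Type) [Field F] [Algebra ℂ F] (G : Subgroup (F ≃ₐ[ℂ] F)) (S : Subalgebra ℂ F)
    (z : Fin E → F) (p : Ideal S) (y : Fin N → F) (m : ℕ) (g h : F), Pr N G S y m g →
    S = Algebra.adjoin ℂ (range z) → (∀ j, z j ≠ 0) → (∀ j, Eig G (z j)) → p.IsPrime → h ≠ 0 →
    Eig G h → (∀ R : Pl F, (R.ord g : ℝ) / m = R.ord h / Q) → (∀ R, PD S R → ld y m g R ≤ 1) →
    (∀ q : Ideal S, Hyp ε G S q y m g) → ∃ A, Idx J G A S p ∧ Sol n A S p (PDat S p) y m g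

/-- the theorem for the finite groups, at one place -/
def CorG (N d k q : ℕ) (ε : ℝ) (m : ℕ) : Prop :=
  ∀ (K F : Type) [Field K] [Algebra ℂ K] [Field F] [Algebra ℂ F] [Algebra K F]
    [IsScalarTower ℂ K F] (y : Fin d → K) (t : Fin k → F) (T : Set (Pl K))
    (D : Pl K → Fin k → ℤ) (s : Fin N → K) (a : Fin N → Fin k → ℤ) (h : K) (δ : Fin k → ℤ)
    (r : ℕ), Ext K d t → Frm y → Cox T D s a → h ≠ 0 →
    (∀ E ∈ T, q * kap y E ≤ (E.ord h + δ ⬝ᵥ D E : ℤ)) → 0 < r →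
    (∀ G : Subgroup (F ≃ₐ[ℂ] F), (G : Set _) = Gr K t r → ∀ U : Pl F,
      (∀ x ∈ Rg s a t, x ∈ U.ring) → ∀ e : ℕ, 0 < e → Dv G U e →
        ε * e ≤ lt y t U - (U.ord (hm t h δ) : ℝ) / q) →
    ∀ U : Pl F, (∀ x ∈ Rg s a t, x ∈ U.ring) → ∃ n : Fin N → ℕ,
      (∀ i, (r : ℤ) ∣ dg a n i + m * δ i) ∧
      ∑ j, (n j : ℝ) * U.ord (hm t (s j) (a j)) < q * m * (lt y t U - (U.ord (hm t h δ) : ℝ) / q)

/-- the statement for the rows -/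
def QgB (N k n q : ℕ) (ε : ℝ) (M : ℕ) : Prop :=
  ∀ (K : Type) [Field K] [Algebra ℂ K] (u : Finset K) (Λ Γ Γ' : BD K) (D : Pl K → Fin k → ℤ)
    (s : Fin N → K) (a : Fin N → Fin k → ℤ), Dat n u Λ Γ Γ' → Cox (Tt n u Λ) D s a →
    (∀ e, ∃ φ ∈ Sp s a e, φ ≠ 0) → (∃ x : K, x ≠ 0 ∧ ∀ P ∈ Tt n u Λ, -Γ' P ≤ P.ord x) →
    (∃ h e, Eqv (Tt n u Λ) D ((q : ℝ) • Γ) h e) →
    (∀ P ∈ Tt n u Λ, dsc (n + 1) Γ P ≤ 0) → (∀ P, Ov u P → ε ≤ 1 + dsc (n + 1) Γ P) →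
    NefO n K u (-Γ) → Cpl n M u Λ Γ

/-- the ring of the sections of the combinations of the `D_i` over `V` is generated by the
`s_j t ^ a_j` -/
structure Gen {K : Type} [Field K] [Algebra ℂ K] {k N : ℕ} (n : ℕ) (u : Finset K) (Λ : BD K)
    (D : Fin k → Pl K → ℤ) (s : Fin N → K) (a : Fin N → Fin k → ℤ)
    (π : MvPolynomial (Fin N) ℂ →ₐ[ℂ] AddMonoidAlgebra K (Fin k → ℤ)) : Prop where
  fin : ∀ i, {P | Ov u P ∧ On n Λ P ∧ D i P ≠ 0}.Finite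
  gen : ∀ j, π (.X j) = .single (a j) (s j)
  sec : ∀ F, (∃ p, π p = F) ↔ ∀ m, F.coeff m ≠ 0 →
    ∀ P, Ov u P → On n Λ P → 0 ≤ P.ord (F.coeff m) + Cox.cf D m P

/-- the statement on the tier, dimension `n + 1` -/
def QgAt (n : ℕ) : Prop := ∀ N q : ℕ, 1 ≤ q → ∀ ε : ℝ, 0 < ε →
  ∃ M : ℕ, 1 ≤ M ∧ ∀ (K : Type) [Field K] [Algebra ℂ K] (u : Finset K) (Λ Γ Γ' : BD K) (k : ℕ)
    (D : Fin k → Pl K → ℤ) (s : Fin N → K) (a : Fin N → Fin k → ℤ)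
    (π : MvPolynomial (Fin N) ℂ →ₐ[ℂ] AddMonoidAlgebra K (Fin k → ℤ)),
    Dat n u Λ Γ Γ' → Cox.Bir u → Gen n u Λ D s a π → Cox.Sp n u Λ D ((q : ℝ) • Γ) →
    (∀ P, Ov u P → ε ≤ 1 + dsc (n + 1) Γ P) →
    (∀ P, Ov u P → On n Λ P → dsc (n + 1) Γ P ≤ 0) → NefO n K u (-Γ) → Cpl n M u Λ Γ

end Vale.Agent.P283R.Bg
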